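import Vale.Agent.P181.FLAT.H604.Peel

set_option autoImplicit false

open Finset

namespace Vale.Agent.P181.FLAT.H604

section PeelA

/-- One slot is replaced by a derivative (general form). -/
lemma slot_deriv0 {W : Type*} [AddCommGroup W] [Module ℂ W] {N : ℕ}
    (T : MultilinearMap ℂ (fun _ : Fin N => W) ℂ)
    (hT : ∀ (σ : Equiv.Perm (Fin N)) v, T (fun i => v (σ i)) = T v) (j : Fin N) (G : Fin N → W)
    (B D : W) (R : ℂ → W) (hR : PC R)
    (h : ∀ t : ℂ, T (fun i => if i < j then G i else B + t • (D + t • R t)) = 0) :
    T (Function.update (fun i => if i < j then G i else B) j D) = 0 := by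
  have h1 := deriv_zero T (fun i => if i < j then G i else B)
    (fun i => if i < j then 0 else D) (fun i t => if i < j then 0 else R t)
    (fun i => by
      by_cases hi : i < j
      · simp only [hi, if_true]; exact PC.const _
      · simp only [hi, if_false]; exact hR)
    (fun t => by
      rw [← h t]
      congr 1
      funext i
      by_cases hi : i < j
      · simp [hi]
      · simp only [hi, if_false])
  have h2 : ∀ i : Fin N, T (Function.update (fun i => if i < j then G i else B) i
      (if i < j then 0 else D)) = if i < j then 0 else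
      T (Function.update (fun i => if i < j then G i else B) j D) := by
    intro i
    by_cases hi : i < j
    · simp only [hi, if_true]
      exact T.map_coord_zero i (by simp)
    · simp only [hi, if_false]
      rw [← hT (Equiv.swap i j)]
      congr 1
      funext k
      by_cases hkj : k = j
      · subst hkj
        simp
      · by_cases hki : k = i
        · subst hki
          rw [Equiv.swap_apply_left, Function.update_of_ne hkj,
            Function.update_of_ne (Ne.symm hkj)]
          simp [hi]
        · rw [Equiv.swap_apply_of_ne_of_ne hki hkj, Function.update_of_ne hki,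
            Function.update_of_ne hkj]
  rw [Finset.sum_congr rfl (fun i _ => h2 i), Finset.sum_ite] at h1
  simp only [Finset.sum_const_zero, zero_add, Finset.sum_const, nsmul_eq_mul] at h1
  rcases mul_eq_zero.1 h1 with h3 | h3
  · exfalso
    have h4 : j ∈ Finset.univ.filter (fun i : Fin N => ¬ i < j) := by simp
    have h5 : 0 < (Finset.univ.filter (fun i : Fin N => ¬ i < j)).card := Finset.card_pos.2 ⟨j, h4⟩
    exact h5.ne' (by exact_mod_cast h3)
  · exact h3

variable {A : Type*} [Ring A] [Algebra ℂ A]

lemma PC.mulA {c d : ℂ → A} (hc : PC c) (hd : PC d) : PC (fun t => c t * d t) := by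
  obtain ⟨K, hK, e, a, h⟩ := hc
  obtain ⟨K', hK', e', a', h'⟩ := hd
  refine ⟨K × K', inferInstance, fun p => e p.1 + e' p.2, fun p => a p.1 * a' p.2, fun t => ?_⟩
  beta_reduce
  rw [h, h', Fintype.sum_mul_sum, Fintype.sum_prod_type]
  refine Finset.sum_congr rfl fun i _ => Finset.sum_congr rfl fun j _ => ?_
  simp only [pow_add, smul_mul_smul_comm]

lemma PC.powA {c : ℂ → A} (hc : PC c) (n : ℕ) : PC (fun t => c t ^ n) := by
  induction n with
  | zero => simpa using PC.const (1 : A)
  | succ n ih =>
    simp only [pow_succ]
    exact ih.mulA hc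

/-- The expansion of `(F + t H) ^ (n + 1)` to second order. -/
lemma pow_expand (F H : A) (hFH : F * H = H * F) (n : ℕ) :
    ∃ R : ℂ → A, PC R ∧ ∀ t : ℂ, (F + t • H) ^ (n + 1) =
      F ^ (n + 1) + t • (((n + 1 : ℕ) : ℂ) • (F ^ n * H) + t • R t) := by
  induction n with
  | zero => exact ⟨fun _ => 0, PC.const 0, fun t => by simp⟩
  | succ n ih =>
    obtain ⟨R, hR, h⟩ := ih
    refine ⟨fun t => ((n + 1 : ℕ) : ℂ) • (F ^ n * H * H) + R t * (F + t • H), ?_, fun t => ?_⟩
    · exact (PC.const _).add (hR.mulA ((PC.const F).add (PC.const H).smul))
    · have h1 : F ^ n * H * F = F ^ (n + 1) * H := by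
        rw [mul_assoc, ← hFH, ← mul_assoc, ← pow_succ]
      rw [pow_succ (F + t • H) (n + 1), h t]
      have h2 : (F ^ (n + 1) + t • (((n + 1 : ℕ) : ℂ) • (F ^ n * H) + t • R t)) * (F + t • H) =
          F ^ (n + 1) * F + t • (F ^ (n + 1) * H) + t • ((n + 1 : ℕ) : ℂ) • (F ^ n * H * F) +
          t • t • ((n + 1 : ℕ) : ℂ) • (F ^ n * H * H) + t • t • (R t * (F + t • H)) := by
        simp only [add_mul, mul_add, smul_mul_assoc, mul_smul_comm, smul_add]
        simp only [smul_comm t ((n + 1 : ℕ) : ℂ)]
        abel
      rw [h2, h1, ← pow_succ F (n + 1)]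
      push_cast
      module

/-- **Peeling** in an algebra: a symmetric form which vanishes on all `q + 1`-st powers of the
elements of `U` vanishes on `Z`, when multiplication by the `q`-th power of one element maps `U`
onto `Z`. -/
theorem peelA (U Z : Submodule ℂ A) (hU : ∀ x ∈ U, ∀ y : A, x * y = y * x) (q N : ℕ)
    (hZ : ∀ F ∈ U, ∀ G ∈ U, ∀ H ∈ U, ∀ i j, i + j = q → F ^ i * G ^ j * H ∈ Z)
    (Ω : A) (hΩU : Ω ∈ U) (hΩ : ∀ v ∈ Z, ∃ u ∈ U, Ω ^ q * u = v)
    (T : MultilinearMap ℂ (fun _ : Fin N => A) ℂ)
    (hT : ∀ (σ : Equiv.Perm (Fin N)) v, T (fun i => v (σ i)) = T v)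
    (h : ∀ F ∈ U, T (fun _ => F ^ (q + 1)) = 0) :
    ∀ G : Fin N → A, (∀ i, G i ∈ Z) → T G = 0 := by
  intro G hG
  have key : ∀ k : ℕ, k ≤ N → ∀ F ∈ U,
      T (fun i => if (i : ℕ) < k then G i else F ^ (q + 1)) = 0 := by
    intro k
    induction k with
    | zero =>
      intro _ F hF
      simpa using h F hF
    | succ k ih =>
      intro hk
      set j : Fin N := ⟨k, hk⟩ with hj
      -- the derivative
      have hder : ∀ F ∈ U, ∀ H ∈ U,
          T (Function.update (fun i => if i < j then G i else F ^ (q + 1)) j (F ^ q * H)) = 0 := by
        intro F hF H hH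
        obtain ⟨R, hR, hexp⟩ := pow_expand F H (hU F hF H) q
        have h1 := slot_deriv0 T hT j G (F ^ (q + 1)) (((q + 1 : ℕ) : ℂ) • (F ^ q * H)) R hR
          (fun t => by
            have h2 := ih (by omega) (F + t • H) (U.add_mem hF (U.smul_mem t hH))
            rw [hexp t] at h2
            simpa [Fin.lt_def, hj] using h2)
        rw [T.map_update_smul] at h1
        rcases smul_eq_zero.1 h1 with h2 | h2
        · exact absurd h2 (Nat.cast_ne_zero.2 (Nat.succ_ne_zero q))
        · exact h2
      -- free slot
      have hfree : ∀ F ∈ U, ∀ X ∈ Z,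
          T (Function.update (fun i => if i < j then G i else F ^ (q + 1)) j X) = 0 := by
        intro F hF
        have hc : PC (fun s : ℂ => Ω + s • (F - Ω)) := (PC.const _).add (PC.const _).smul
        have hcU : ∀ s : ℂ, Ω + s • (F - Ω) ∈ U := fun s =>
          U.add_mem hΩU (U.smul_mem s (U.sub_mem hF hΩU))
        have hval : ∀ X : A, PC (fun s : ℂ => T (Function.update
            (fun i => if i < j then G i else (Ω + s • (F - Ω)) ^ (q + 1)) j X)) := by
          intro X
          refine PC.multi (c := fun i s => Function.update
            (fun i => if i < j then G i else (Ω + s • (F - Ω)) ^ (q + 1)) j X i) (fun i => ?_) T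
          by_cases hi : i = j
          · subst hi
            simp only [Function.update_self]
            exact PC.const _
          · simp only [Function.update_of_ne hi]
            by_cases hij : i < j
            · simp only [hij, if_true]
              exact PC.const _
            · simp only [hij, if_false]
              exact hc.powA _
        choose P hP using fun X => (hval X).poly
        have hdvd : ∀ m : ℕ, ∀ X ∈ Z, Polynomial.X ^ m ∣ P X := by
          intro m
          induction m with
          | zero => intro X _; simp
          | succ m ihm =>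
            intro X hX
            obtain ⟨H, hH, rfl⟩ := hΩ X hX
            have hsum : ∀ s : ℂ, (Ω + s • (F - Ω)) ^ q * H = ∑ r ∈ range (q + 1),
                s ^ r • ((q.choose r : ℂ) • ((F - Ω) ^ r * Ω ^ (q - r) * H)) := by
              intro s
              have hcom : Commute (s • (F - Ω)) Ω :=
                hU _ (U.smul_mem s (U.sub_mem hF hΩU)) Ω
              rw [add_comm, hcom.add_pow, Finset.sum_mul]
              refine Finset.sum_congr rfl fun r _ => ?_
              rw [smul_pow, smul_mul_assoc, smul_mul_assoc, smul_mul_assoc]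
              congr 1
              rw [← nsmul_eq_mul', smul_mul_assoc, Nat.cast_smul_eq_nsmul]
            have hpoly : P (Ω ^ q * H) = - ∑ r ∈ range q, Polynomial.X ^ (r + 1) *
                (Polynomial.C (q.choose (r + 1) : ℂ) *
                  P ((F - Ω) ^ (r + 1) * Ω ^ (q - (r + 1)) * H)) := by
              apply Polynomial.funext
              intro s
              have h1 := hder _ (hcU s) H hH
              rw [hsum s, MultilinearMap.map_update_sum, Finset.sum_range_succ'] at h1
              simp only [MultilinearMap.map_update_smul, smul_eq_mul] at h1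
              simp only [← hP, pow_zero, Nat.choose_zero_right, Nat.cast_one, one_mul,
                Nat.sub_zero] at h1
              rw [Polynomial.eval_neg, Polynomial.eval_finsetSum]
              simp only [Polynomial.eval_mul, Polynomial.eval_pow, Polynomial.eval_X,
                Polynomial.eval_C]
              simp only [← mul_assoc] at h1 ⊢
              linear_combination h1
            rw [hpoly, dvd_neg]
            refine Finset.dvd_sum fun r hr => ?_
            have hrq : r < q := mem_range.1 hr
            have h2 : (F - Ω) ^ (r + 1) * Ω ^ (q - (r + 1)) * H ∈ Z :=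
              hZ _ (U.sub_mem hF hΩU) _ hΩU _ hH _ _ (by omega)
            obtain ⟨Q, hQ⟩ := ihm _ h2
            rw [hQ]
            exact ⟨Polynomial.X ^ r * Polynomial.C (q.choose (r + 1) : ℂ) * Q, by ring⟩
        intro X hX
        have hP0 : P X = 0 := by
          by_contra hne
          have h1 := Polynomial.degree_le_of_dvd (hdvd ((P X).natDegree + 1) X hX) hne
          rw [Polynomial.degree_X_pow, Polynomial.degree_eq_natDegree hne] at h1
          exact absurd (WithBot.coe_le_coe.1 h1) (by
            simp only [not_le]
            exact Nat.lt_succ_self _)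
        have h1 := hP X 1
        rw [hP0, Polynomial.eval_zero, one_smul, add_sub_cancel] at h1
        exact h1.symm
      intro F hF
      have h1 := hfree F hF (G j) (hG j)
      rw [← h1]
      congr 1
      funext i
      by_cases hi : i = j
      · subst hi
        simp [hj]
      · rw [Function.update_of_ne hi]
        have h3 : (i : ℕ) ≠ k := fun h4 => hi (Fin.ext h4)
        have h4 : ((i : ℕ) < k + 1) ↔ (i < j) := by
          rw [Fin.lt_def, hj]
          simp only
          omega
        simp only [h4]
  have h1 := key N le_rfl 0 (U.zero_mem)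
  simpa using h1

end PeelA

end Vale.Agent.P181.FLAT.H604
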