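import Mathlib

set_option autoImplicit false

open Finset

namespace Vale.Agent.P181.FLAT.H604

section PC

variable {V W : Type*} [AddCommGroup V] [Module ℂ V] [AddCommGroup W] [Module ℂ W]

/-- Polynomial curves. -/
def PC (c : ℂ → W) : Prop :=
  ∃ (K : Type) (_ : Fintype K) (e : K → ℕ) (a : K → W), ∀ t, c t = ∑ k, t ^ e k • a k

lemma PC.const (w : W) : PC (fun _ => w) :=
  ⟨Unit, inferInstance, fun _ => 0, fun _ => w, fun t => by simp⟩

lemma PC.pow_smul {c : ℂ → W} (hc : PC c) (m : ℕ) : PC (fun t => t ^ m • c t) := by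
  obtain ⟨K, hK, e, a, h⟩ := hc
  refine ⟨K, hK, fun k => m + e k, a, fun t => ?_⟩
  simp only [h, Finset.smul_sum, pow_add, mul_smul]

lemma PC.smul {c : ℂ → W} (hc : PC c) : PC (fun t => t • c t) := by
  simpa using hc.pow_smul 1

lemma PC.add {c d : ℂ → W} (hc : PC c) (hd : PC d) : PC (fun t => c t + d t) := by
  obtain ⟨K, hK, e, a, h⟩ := hc
  obtain ⟨K', hK', e', a', h'⟩ := hd
  refine ⟨K ⊕ K', inferInstance, Sum.elim e e', Sum.elim a a', fun t => ?_⟩
  simp [h, h', Fintype.sum_sum_type]

lemma PC.sum {ι : Type*} (s : Finset ι) {c : ι → ℂ → W} (hc : ∀ i ∈ s, PC (c i)) :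
    PC (fun t => ∑ i ∈ s, c i t) := by
  classical
  induction s using Finset.induction_on with
  | empty => simpa using PC.const (0 : W)
  | insert i s hi ih =>
    simp only [Finset.sum_insert hi]
    exact (hc i (mem_insert_self i s)).add (ih fun j hj => hc j (mem_insert_of_mem hj))

lemma PC.lin {c : ℂ → W} (hc : PC c) (f : W →ₗ[ℂ] V) : PC (fun t => f (c t)) := by
  obtain ⟨K, hK, e, a, h⟩ := hc
  exact ⟨K, hK, e, fun k => f (a k), fun t => by simp [h, map_sum]⟩

lemma PC.multi {ι : Type} [Fintype ι] {c : ι → ℂ → W} (hc : ∀ i, PC (c i))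
    (f : MultilinearMap ℂ (fun _ : ι => W) V) : PC (fun t => f (fun i => c i t)) := by
  classical
  choose K hK e a h using hc
  refine ⟨∀ i, K i, inferInstance, fun r => ∑ i, e i (r i),
    fun r => f (fun i => a i (r i)), fun t => ?_⟩
  have h1 : (fun i => c i t) = fun i => ∑ k, t ^ e i k • a i k := funext fun i => h i t
  beta_reduce
  rw [h1, MultilinearMap.map_sum]
  refine Finset.sum_congr rfl fun r _ => ?_
  rw [MultilinearMap.map_smul_univ, Finset.prod_pow_eq_pow_sum]

lemma PC.mul {c d : ℂ → ℂ} (hc : PC c) (hd : PC d) : PC (fun t => c t * d t) := by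
  obtain ⟨K, hK, e, a, h⟩ := hc
  obtain ⟨K', hK', e', a', h'⟩ := hd
  refine ⟨K × K', inferInstance, fun p => e p.1 + e' p.2, fun p => a p.1 * a' p.2, fun t => ?_⟩
  beta_reduce
  rw [h, h', Fintype.sum_mul_sum, Fintype.sum_prod_type]
  refine Finset.sum_congr rfl fun i _ => Finset.sum_congr rfl fun j _ => ?_
  simp only [smul_eq_mul, pow_add]
  ring

lemma PC.prod {ι : Type*} (s : Finset ι) {c : ι → ℂ → ℂ} (hc : ∀ i ∈ s, PC (c i)) :
    PC (fun t => ∏ i ∈ s, c i t) := by
  classical
  induction s using Finset.induction_on with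
  | empty => simpa using PC.const (1 : ℂ)
  | insert i s hi ih =>
    simp only [Finset.prod_insert hi]
    exact (hc i (mem_insert_self i s)).mul (ih fun j hj => hc j (mem_insert_of_mem hj))

lemma PC.id : PC (fun t : ℂ => t) := by
  simpa using (PC.const (1 : ℂ)).smul

lemma PC.poly {c : ℂ → ℂ} (hc : PC c) : ∃ P : Polynomial ℂ, ∀ t, P.eval t = c t := by
  obtain ⟨K, hK, e, a, h⟩ := hc
  refine ⟨∑ k, Polynomial.monomial (e k) (a k), fun t => ?_⟩
  rw [h, Polynomial.eval_finsetSum]
  refine Finset.sum_congr rfl fun k _ => ?_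
  rw [Polynomial.eval_monomial, smul_eq_mul, mul_comm]

lemma PC.cancel {c d : ℂ → ℂ} (hc : PC c) (hd : PC d) {t0 : ℂ} (h0 : c t0 ≠ 0)
    (h : ∀ t, c t * d t = 0) : ∀ t, d t = 0 := by
  obtain ⟨P, hP⟩ := hc.poly
  obtain ⟨Q, hQ⟩ := hd.poly
  have hPQ : P * Q = 0 := Polynomial.funext fun t => by simp [hP, hQ, h t]
  rcases mul_eq_zero.1 hPQ with h1 | h1
  · exact absurd (by rw [← hP, h1]; simp) h0
  · intro t
    rw [← hQ, h1]
    simp

lemma PC.det {n : ℕ} {M : ℂ → Matrix (Fin n) (Fin n) ℂ} (h : ∀ i j, PC (fun t => M t i j)) :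
    PC (fun t => (M t).det) := by
  simp only [Matrix.det_apply']
  exact PC.sum _ fun σ _ => (PC.const _).mul (PC.prod _ fun i _ => h _ _)

lemma deriv_zero {ι : Type} [Fintype ι] [DecidableEq ι]
    (T : MultilinearMap ℂ (fun _ : ι => W) ℂ) (A D : ι → W) (R : ι → ℂ → W)
    (hR : ∀ i, PC (R i)) (h : ∀ t : ℂ, T (fun i => A i + t • (D i + t • R i t)) = 0) :
    ∑ i, T (Function.update A i (D i)) = 0 := by
  have h0 : T A = 0 := by simpa using h 0
  have hg : ∀ i, PC (fun t => D i + t • R i t) := fun i => (PC.const (D i)).add (hR i).smul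
  have hY : ∀ t : ℂ, t * (T.linearDeriv A (fun i => D i + t • R i t) +
      ∑ s with 2 ≤ #s, t ^ (#s - 1) • T (s.piecewise (fun i => D i + t • R i t) A)) = 0 := by
    intro t
    have h1 := h t
    have h2 : (fun i => A i + t • (D i + t • R i t)) = A + t • (fun i => D i + t • R i t) := rfl
    rw [h2, MultilinearMap.map_add_eq_map_add_linearDeriv_add, h0, zero_add, map_smul] at h1
    rw [mul_add, ← h1, smul_eq_mul, Finset.mul_sum]
    congr 1
    refine Finset.sum_congr rfl fun s hs => ?_
    have hs2 : 2 ≤ #s := (mem_filter.1 hs).2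
    have h3 := T.map_piecewise_smul (fun _ => t) (s.piecewise (fun i => D i + t • R i t) A) s
    have h4 : s.piecewise (fun i => t • s.piecewise (fun i => D i + t • R i t) A i)
        (s.piecewise (fun i => D i + t • R i t) A) =
        s.piecewise (t • (fun i => D i + t • R i t)) A := by
      funext i
      by_cases hi : i ∈ s <;> simp [hi]
    rw [h4] at h3
    rw [h3, Finset.prod_const, smul_eq_mul, smul_eq_mul, ← mul_assoc, ← pow_succ']
    congr 2
    omega
  have hPC : PC (fun t : ℂ => T.linearDeriv A (fun i => D i + t • R i t) +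
      ∑ s with 2 ≤ #s, t ^ (#s - 1) • T (s.piecewise (fun i => D i + t • R i t) A)) := by
    refine PC.add ?_ (PC.sum _ fun s _ => PC.pow_smul (PC.multi (fun i => ?_) T) _)
    · simp only [MultilinearMap.linearDeriv_apply]
      exact PC.sum _ fun i _ => PC.lin (hg i) (T.toLinearMap A i)
    · by_cases hi : i ∈ s
      · simp only [hi, Finset.piecewise_eq_of_mem]
        exact hg i
      · simp only [hi, not_false_eq_true, Finset.piecewise_eq_of_notMem]
        exact PC.const _
  have h5 := PC.cancel PC.id hPC (t0 := 1) one_ne_zero hY 0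
  rw [Finset.sum_eq_zero, add_zero] at h5
  · simpa using h5
  · intro s hs
    have hs2 : 2 ≤ #s := (mem_filter.1 hs).2
    rw [zero_pow (by omega), zero_smul]

end PC

section Peel

variable {E W : Type*} [AddCommGroup E] [Module ℂ E] [FiniteDimensional ℂ E]
  [AddCommGroup W] [Module ℂ W] [FiniteDimensional ℂ W]

omit [FiniteDimensional ℂ E] [FiniteDimensional ℂ W] in
/-- The expansion of a power to second order. -/
lemma power_expand {m : ℕ} (μ : MultilinearMap ℂ (fun _ : Fin m => E) W) (F H : E) :
    ∃ R : ℂ → W, PC R ∧ ∀ t : ℂ, μ (fun _ => F + t • H) = μ (fun _ => F) +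
      t • (μ.linearDeriv (fun _ => F) (fun _ => H) + t • R t) := by
  refine ⟨fun t => ∑ s with 2 ≤ #s, t ^ (#s - 2) • μ (s.piecewise (fun _ => H) (fun _ => F)),
    PC.sum _ fun s _ => PC.pow_smul (PC.const _) _, fun t => ?_⟩
  have h2 : (fun _ : Fin m => F + t • H) = (fun _ => F) + t • (fun _ => H) := rfl
  rw [h2, MultilinearMap.map_add_eq_map_add_linearDeriv_add, map_smul, smul_add, add_assoc]
  congr 2
  rw [Finset.smul_sum, Finset.smul_sum]
  refine Finset.sum_congr rfl fun s hs => ?_
  have hs2 : 2 ≤ #s := (mem_filter.1 hs).2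
  have h3 := μ.map_piecewise_smul (fun _ => t) (s.piecewise (fun _ => H) (fun _ => F)) s
  have h4 : s.piecewise (fun i => t • s.piecewise (fun _ => H) (fun _ => F) i)
      (s.piecewise (fun _ => H) (fun _ => F)) =
      s.piecewise (t • (fun _ : Fin m => H)) (fun _ => F) := by
    funext i
    by_cases hi : i ∈ s <;> simp [hi]
  rw [h4] at h3
  rw [h3, Finset.prod_const, smul_smul, smul_smul]
  congr 1
  obtain ⟨k, hk⟩ : ∃ k, #s = k + 2 := ⟨#s - 2, by omega⟩
  rw [hk, Nat.add_sub_cancel]
  ring

omit [FiniteDimensional ℂ E] [FiniteDimensional ℂ W] in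
/-- The derivative of the power map. -/
noncomputable def dpow {m : ℕ} (μ : MultilinearMap ℂ (fun _ : Fin m => E) W) (F : E) : E →ₗ[ℂ] W :=
  (μ.linearDeriv (fun _ => F)).comp (LinearMap.pi fun _ => LinearMap.id)

omit [FiniteDimensional ℂ E] [FiniteDimensional ℂ W] in
lemma dpow_apply {m : ℕ} (μ : MultilinearMap ℂ (fun _ : Fin m => E) W) (F H : E) :
    dpow μ F H = μ.linearDeriv (fun _ => F) (fun _ => H) := rfl

omit [FiniteDimensional ℂ E] [FiniteDimensional ℂ W] in
/-- One slot is replaced by a derivative. -/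
lemma slot_deriv {m N : ℕ} (μ : MultilinearMap ℂ (fun _ : Fin m => E) W)
    (T : MultilinearMap ℂ (fun _ : Fin N => W) ℂ)
    (hT : ∀ (σ : Equiv.Perm (Fin N)) v, T (fun i => v (σ i)) = T v) (j : Fin N) (G : Fin N → W)
    (h : ∀ F : E, T (fun i => if i < j then G i else μ (fun _ => F)) = 0) (F H : E) :
    T (Function.update (fun i => if i < j then G i else μ (fun _ => F)) j (dpow μ F H)) = 0 := by
  obtain ⟨R, hR, hexp⟩ := power_expand μ F H
  have h1 := deriv_zero T (fun i => if i < j then G i else μ (fun _ => F))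
    (fun i => if i < j then 0 else dpow μ F H) (fun i t => if i < j then 0 else R t)
    (fun i => by
      by_cases hi : i < j
      · simp only [hi, if_true]; exact PC.const _
      · simp only [hi, if_false]; exact hR)
    (fun t => by
      rw [← h (F + t • H)]
      congr 1
      funext i
      by_cases hi : i < j
      · simp [hi]
      · simp only [hi, if_false]
        rw [hexp t, dpow_apply])
  have h2 : ∀ i : Fin N, T (Function.update (fun i => if i < j then G i else μ (fun _ => F)) i
      (if i < j then 0 else dpow μ F H)) = if i < j then 0 else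
      T (Function.update (fun i => if i < j then G i else μ (fun _ => F)) j (dpow μ F H)) := by
    intro i
    by_cases hi : i < j
    · simp only [hi, if_true]
      exact T.map_coord_zero i (by simp)
    · simp only [hi, if_false]
      rw [← hT (Equiv.swap i j)]
      congr 1
      funext k
      by_cases hkj : k = j
      · subst hkj
        simp
      · by_cases hki : k = i
        · subst hki
          rw [Equiv.swap_apply_left, Function.update_of_ne hkj,
            Function.update_of_ne (Ne.symm hkj)]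
          simp [hi]
        · rw [Equiv.swap_apply_of_ne_of_ne hki hkj, Function.update_of_ne hki,
            Function.update_of_ne hkj]
  rw [Finset.sum_congr rfl (fun i _ => h2 i), Finset.sum_ite] at h1
  simp only [Finset.sum_const_zero, zero_add, Finset.sum_const, nsmul_eq_mul] at h1
  rcases mul_eq_zero.1 h1 with h3 | h3
  · exfalso
    have h4 : j ∈ Finset.univ.filter (fun i : Fin N => ¬ i < j) := by simp
    have h5 : 0 < (Finset.univ.filter (fun i : Fin N => ¬ i < j)).card := Finset.card_pos.2 ⟨j, h4⟩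
    exact h5.ne' (by exact_mod_cast h3)
  · exact h3

/-- One slot is freed. -/
lemma slot_free (hdim : Module.finrank ℂ E = Module.finrank ℂ W) {m N : ℕ}
    (μ : MultilinearMap ℂ (fun _ : Fin m => E) W) (F0 : E)
    (hF0 : ∀ H : E, dpow μ F0 H = 0 → H = 0)
    (T : MultilinearMap ℂ (fun _ : Fin N => W) ℂ)
    (hT : ∀ (σ : Equiv.Perm (Fin N)) v, T (fun i => v (σ i)) = T v) (j : Fin N) (G : Fin N → W)
    (h : ∀ F : E, T (fun i => if i < j then G i else μ (fun _ => F)) = 0) (F : E) (X : W) :
    T (Function.update (fun i => if i < j then G i else μ (fun _ => F)) j X) = 0 := by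
  have hinj : Function.Injective (dpow μ F0) :=
    (injective_iff_map_eq_zero _).2 hF0
  let e : E ≃ₗ[ℂ] W := (dpow μ F0).linearEquivOfInjective hinj hdim
  have he : ∀ H, e H = dpow μ F0 H := fun H =>
    LinearMap.linearEquivOfInjective_apply hinj hdim H
  let c : ℂ → E := fun s => F0 + s • (F - F0)
  have hc : PC c := (PC.const _).add (PC.const _).smul
  let b := Module.finBasis ℂ E
  let M : ℂ → Matrix (Fin (Module.finrank ℂ E)) (Fin (Module.finrank ℂ E)) ℂ := fun s =>
    LinearMap.toMatrix b b ((e.symm : W →ₗ[ℂ] E) ∘ₗ dpow μ (c s))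
  have hdet : PC (fun s => (M s).det) := by
    refine PC.det fun i k => ?_
    have h1 : (fun s => M s i k) = fun s => (b.coord i ∘ₗ (e.symm : W →ₗ[ℂ] E))
        (∑ l, μ (Function.update (fun _ => c s) l (b k))) := by
      funext s
      simp [M, LinearMap.toMatrix_apply, dpow_apply, MultilinearMap.linearDeriv_apply]
    rw [h1]
    refine PC.lin (PC.sum _ fun l _ => ?_) _
    refine PC.multi (c := fun i s => Function.update (fun _ => c s) l (b k) i) (fun i => ?_) μ
    by_cases hi : i = l
    · subst hi
      simp only [Function.update_self]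
      exact PC.const _
    · simp only [Function.update_of_ne hi]
      exact hc
  have hval : PC (fun s => T (Function.update
      (fun i => if i < j then G i else μ (fun _ => c s)) j X)) := by
    refine PC.multi (c := fun i s => Function.update
      (fun i => if i < j then G i else μ (fun _ => c s)) j X i) (fun i => ?_) T
    by_cases hi : i = j
    · subst hi
      simp only [Function.update_self]
      exact PC.const _
    · simp only [Function.update_of_ne hi]
      by_cases hij : i < j
      · simp only [hij, if_true]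
        exact PC.const _
      · simp only [hij, if_false]
        exact PC.multi (c := fun _ s => c s) (fun _ => hc) μ
  have hM0 : (M 0).det ≠ 0 := by
    have h1 : (e.symm : W →ₗ[ℂ] E) ∘ₗ dpow μ (c 0) = LinearMap.id := by
      ext H
      simp only [c, zero_smul, add_zero, LinearMap.comp_apply, LinearMap.id_apply,
        LinearEquiv.coe_coe]
      rw [← he H, LinearEquiv.symm_apply_apply]
    simp only [M]
    rw [h1, LinearMap.toMatrix_id, Matrix.det_one]
    exact one_ne_zero
  have hprod : ∀ s, (M s).det * T (Function.update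
      (fun i => if i < j then G i else μ (fun _ => c s)) j X) = 0 := by
    intro s
    by_cases hs : (M s).det = 0
    · rw [hs, zero_mul]
    · have h1 : LinearMap.det ((e.symm : W →ₗ[ℂ] E) ∘ₗ dpow μ (c s)) ≠ 0 := by
        rw [← LinearMap.det_toMatrix b]
        exact hs
      let e2 := LinearMap.equivOfDetNeZero _ h1
      have he2 : ∀ H, e2 H = e.symm (dpow μ (c s) H) := fun H => rfl
      have h2 : dpow μ (c s) (e2.symm (e.symm X)) = X := by
        have h3 := he2 (e2.symm (e.symm X))
        rw [LinearEquiv.apply_symm_apply] at h3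
        exact (e.symm.injective h3).symm
      rw [← h2, slot_deriv μ T hT j G h, mul_zero]
  have h1 := PC.cancel hdet hval hM0 hprod 1
  have h2 : c 1 = F := by simp [c]
  simpa only [h2] using h1

/-- **Peeling.** A symmetric form which vanishes on all powers is zero, when multiplication by the
`q`-th power of one element is a bijection. -/
theorem peelD (hdim : Module.finrank ℂ E = Module.finrank ℂ W) {m N : ℕ}
    (μ : MultilinearMap ℂ (fun _ : Fin m => E) W) (F0 : E)
    (hF0 : ∀ H : E, dpow μ F0 H = 0 → H = 0)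
    (T : MultilinearMap ℂ (fun _ : Fin N => W) ℂ)
    (hT : ∀ (σ : Equiv.Perm (Fin N)) v, T (fun i => v (σ i)) = T v)
    (h : ∀ F : E, T (fun _ => μ (fun _ => F)) = 0) : T = 0 := by
  have key : ∀ k : ℕ, k ≤ N → ∀ (G : Fin N → W) (F : E),
      T (fun i => if (i : ℕ) < k then G i else μ (fun _ => F)) = 0 := by
    intro k
    induction k with
    | zero =>
      intro _ G F
      simpa using h F
    | succ k ih =>
      intro hk G F
      have h1 := slot_free hdim μ F0 hF0 T hT ⟨k, hk⟩ G (fun F => by
        have h2 := ih (by omega) G F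
        simpa [Fin.lt_def] using h2) F (G ⟨k, hk⟩)
      rw [← h1]
      congr 1
      funext i
      by_cases hi : i = ⟨k, hk⟩
      · subst hi
        simp
      · rw [Function.update_of_ne hi]
        have h3 : (i : ℕ) ≠ k := fun h4 => hi (Fin.ext h4)
        have h4 : ((i : ℕ) < k + 1) ↔ (i < (⟨k, hk⟩ : Fin N)) := by
          rw [Fin.lt_def]
          simp only
          omega
        simp only [h4]
  ext G
  have h1 := key N le_rfl G 0
  simpa using h1

/-- **Peeling**, with the derivative in product form. -/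
theorem peel (hdim : Module.finrank ℂ E = Module.finrank ℂ W) {q N : ℕ}
    (μ : MultilinearMap ℂ (fun _ : Fin (q + 1) => E) W)
    (hμ : ∀ (σ : Equiv.Perm (Fin (q + 1))) v, μ (fun i => v (σ i)) = μ v) (F0 : E)
    (hF0 : ∀ H : E, μ (Fin.cons H (fun _ => F0)) = 0 → H = 0)
    (T : MultilinearMap ℂ (fun _ : Fin N => W) ℂ)
    (hT : ∀ (σ : Equiv.Perm (Fin N)) v, T (fun i => v (σ i)) = T v)
    (h : ∀ F : E, T (fun _ => μ (fun _ => F)) = 0) : T = 0 := by
  refine peelD hdim μ F0 (fun H hH => hF0 H ?_) T hT h
  rw [dpow_apply, MultilinearMap.linearDeriv_apply] at hH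
  have h1 : ∀ i : Fin (q + 1), μ (Function.update (fun _ => F0) i H) =
      μ (Fin.cons H (fun _ => F0)) := by
    intro i
    rw [← hμ (Equiv.swap 0 i)]
    congr 1
    funext k
    by_cases hk : k = 0
    · subst hk
      simp
    · obtain ⟨l, rfl⟩ := Fin.exists_succ_eq.2 hk
      rw [Fin.cons_succ]
      by_cases hl : l.succ = i
      · subst hl
        rw [Equiv.swap_apply_right, Function.update_of_ne (Fin.succ_ne_zero l).symm]
      · rw [Equiv.swap_apply_of_ne_of_ne hk hl, Function.update_of_ne hl]
  rw [Finset.sum_congr rfl (fun i _ => h1 i), Finset.sum_const, Finset.card_univ,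
    Fintype.card_fin] at hH
  have h2 : ((q + 1 : ℕ) : ℂ) • μ (Fin.cons H (fun _ => F0)) = 0 := by
    rw [Nat.cast_smul_eq_nsmul]
    exact hH
  rcases smul_eq_zero.1 h2 with h3 | h3
  · exact absurd h3 (Nat.cast_ne_zero.2 (Nat.succ_ne_zero q))
  · exact h3

end Peel

end Vale.Agent.P181.FLAT.H604
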